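import Vale.Agent.P174.Bdl.All

/-! P174, block T2 (degree statement): definitions and statements of the packages T2-*.

`M = N + L`. Source variables: `π_j ∈ U(N)` (as `π ⊕ 1`), `v_j ∈ U(M)`, `s_j ∈ U(L)` (as `1 ⊕ s`).
The words are words in `π_j`, `v_j⁻¹ s_j v_j` and the parameters. -/

set_option linter.all false

namespace Vale.Agent.P174.T2

open Matrix Finset MvPolynomial MeasureTheory

/-- source variables: `π_j`, `v_j`, `s_j` -/
abbrev Sv (J : Type*) := J ⊕ (J ⊕ J)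

section Defs

variable {J P : Type*} {N L : ℕ}

/-- the variable `π_j` -/
abbrev vp (j : J) : Sv J ⊕ P := Sum.inl (Sum.inl j)
/-- the variable `v_j` -/
abbrev vv (j : J) : Sv J ⊕ P := Sum.inl (Sum.inr (Sum.inl j))
/-- the variable `s_j` -/
abbrev vs (j : J) : Sv J ⊕ P := Sum.inl (Sum.inr (Sum.inr j))

/-- block diagonal matrix `A ⊕ D` -/
def blk (A : Mat N) (D : Mat L) : Mat (N + L) :=
  (Matrix.fromBlocks A 0 0 D).submatrix finSumFinEquiv.symm finSumFinEquiv.symm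

lemma blk_mul (A A' : Mat N) (D D' : Mat L) : blk (A * A') (D * D') = blk A D * blk A' D' := by
  simp [blk, Matrix.submatrix_mul_equiv, Matrix.fromBlocks_multiply]

lemma blk_one : blk (1 : Mat N) (1 : Mat L) = 1 := by
  simp [blk]

lemma blk_star (A : Mat N) (D : Mat L) : (blk A D)ᴴ = blk Aᴴ Dᴴ := by
  simp [blk, Matrix.conjTranspose_submatrix, Matrix.fromBlocks_conjTranspose]

/-- `a ⊕ d` for unitary matrices -/
def blkU : UU N × UU L →* UU (N + L) where
  toFun x := ⟨blk (x.1 : Mat N) (x.2 : Mat L), by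
    rw [Matrix.mem_unitaryGroup_iff, Matrix.star_eq_conjTranspose, blk_star, ← blk_mul,
      ← Matrix.star_eq_conjTranspose, ← Matrix.star_eq_conjTranspose,
      Matrix.mem_unitaryGroup_iff.1 x.1.2, Matrix.mem_unitaryGroup_iff.1 x.2.2, blk_one]⟩
  map_one' := Subtype.ext blk_one
  map_mul' x y := Subtype.ext (blk_mul _ _ _ _)

lemma coe_blkU (a : UU N) (d : UU L) : ((blkU (a, d) : UU (N + L)) : Mat (N + L)) =
    blk (a : Mat N) (d : Mat L) := rfl

/-- the source group -/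
abbrev HS (J : Type*) (N L : ℕ) := (J → UU N) × (J → UU (N + L)) × (J → UU L)

/-- the values of the source variables -/
def inc (z : HS J N L) : Sv J → UU (N + L) :=
  Sum.elim (fun j => blkU (z.1 j, 1)) (Sum.elim (fun j => z.2.1 j) (fun j => blkU (1, z.2.2 j)))

/-- the words in `π_j`, `v_j⁻¹ s_j v_j` and the parameters -/
def kap : FreeGroup ((J ⊕ J) ⊕ P) →* FreeGroup (Sv J ⊕ P) :=
  FreeGroup.lift (Sum.elim (Sum.elim (fun j => FreeGroup.of (vp j))
    (fun j => (FreeGroup.of (vv j))⁻¹ * FreeGroup.of (vs j) * FreeGroup.of (vv j)))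
    (fun p => FreeGroup.of (Sum.inr p)))

/-- admissible systems of words -/
def Adm (w : J → FreeGroup (Sv J ⊕ P)) : Prop := ∃ w0 : J → FreeGroup ((J ⊕ J) ⊕ P), ∀ i, w i = kap (w0 i)

variable [DecidableEq J]

/-- the variable of the basis direction `(j, p, q)`: `π_j` if `p, q < N`, `s_j` if `N ≤ p, q`,
`v_j` otherwise -/
def slot (N : ℕ) {L : ℕ} (a : Ix J (N + L)) : Sv J :=
  if (a.2.1 : ℕ) < N ∧ (a.2.2 : ℕ) < N then Sum.inl a.1
  else if N ≤ (a.2.1 : ℕ) ∧ N ≤ (a.2.2 : ℕ) then Sum.inr (Sum.inr a.1) else Sum.inr (Sum.inl a.1)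

/-- the basis directions -/
def dirS (N : ℕ) {L : ℕ} (a : Ix J (N + L)) : Sv J ⊕ P → Mat (N + L) :=
  Sum.elim (fun x => if x = slot N a then Matrix.single a.2.1 a.2.2 1 else 0) (fun _ => 0)

/-- the Jacobian matrix -/
noncomputable def jacS (N : ℕ) {L : ℕ} (w : J → FreeGroup (Sv J ⊕ P)) (t : Sv J ⊕ P → UU (N + L)) :
    Matrix (Ix J (N + L)) (Ix J (N + L)) ℂ :=
  Matrix.of fun c a => fx t (dirS N a) (w c.1) c.2.1 c.2.2

/-- the polynomial Jacobian matrix -/
noncomputable def DpolyS (N : ℕ) {L : ℕ} (w : J → FreeGroup (Sv J ⊕ P)) :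
    Matrix (Ix J (N + L)) (Ix J (N + L)) (PP (Sv J ⊕ P) (N + L)) :=
  Matrix.of fun c a => Dp (dirS N a) (rep (w c.1)) c.2.1 c.2.2

/-- the polynomial derivative vector in the direction `Y` -/
noncomputable def vpolyS (w : J → FreeGroup (Sv J ⊕ P)) (Y : Sv J ⊕ P → Mat (N + L)) :
    Ix J (N + L) → PP (Sv J ⊕ P) (N + L) :=
  fun c => Dp Y (rep (w c.1)) c.2.1 c.2.2

end Defs

section Stmts

variable (J P : Type) [Fintype J] [DecidableEq J]

/-- **T2-MC** (with T2-STAR): the Piola identity -/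
def PiolaStmt : Prop := ∀ (N L : ℕ) (w : J → FreeGroup (Sv J ⊕ P)), Adm w → ∀ (z : HS J N L)
  (ρ : P → UU (N + L)) (B : P → Mat (N + L)) (F : PP J (N + L)),
  ev (Sum.elim (inc z) ρ) (TT (Sum.elim (fun _ => 0) B) (sub w F * (DpolyS N w).det))
    = ∑ a, ev (Sum.elim (inc z) ρ) (TT (dirS N a) (sub w F *
      ((DpolyS N w).updateCol a (vpolyS w (Sum.elim (fun _ => 0) B))).det))

/-- **T2-INT** (a) -/
def IntZeroStmt : Prop := ∀ (N L : ℕ) (a : Ix J (N + L)) (ρ : P → UU (N + L))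
  (f : PP (Sv J ⊕ P) (N + L)),
  ∫ z : HS J N L, ev (Sum.elim (inc z) ρ) (TT (dirS N a) f) ∂(haarP (HS J N L)) = 0

/-- **T2-INT** (b) -/
def DerivStmt : Prop := ∀ (N L : ℕ) (B : P → selfAdjoint (Mat (N + L))) (ρ : P → UU (N + L))
  (f : PP (Sv J ⊕ P) (N + L)) (s : ℝ),
  HasDerivAt (fun s => ∫ z : HS J N L, ev (Sum.elim (inc z) (flow B s ρ)) f ∂(haarP (HS J N L)))
    (∫ z : HS J N L, ev (Sum.elim (inc z) (flow B s ρ)) (TT (Sum.elim (fun _ => 0) (fdir B)) f)
      ∂(haarP (HS J N L))) s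

/-- **T2-INT** (c): the analogue of `exists_sol` -/
def ExistsStmt : Prop := ∀ (N L : ℕ) (w : J → FreeGroup (Sv J ⊕ P)) (ρ : P → UU (N + L)) (d : ℂ),
  (∀ F : PP J (N + L), ∫ z : HS J N L, ev (fun i => FreeGroup.lift (Sum.elim (inc z) ρ) (w i)) F *
        (jacS N w (Sum.elim (inc z) ρ)).det ∂(haarP (HS J N L)) =
      d * ∫ t : J → UU (N + L), ev t F ∂(haarP (J → UU (N + L)))) → d ≠ 0 →
  ∃ z : HS J N L, ∀ i, FreeGroup.lift (Sum.elim (inc z) ρ) (w i) = 1

/-- **T2-LAM**: the degree does not depend on the parameters, and is the degree -/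
def LamStmt : Prop := ∀ (N L : ℕ) (w : J → FreeGroup (Sv J ⊕ P)), Adm w → ∀ (ρ : P → UU (N + L))
  (F : PP J (N + L)),
  ∫ z : HS J N L, ev (fun i => FreeGroup.lift (Sum.elim (inc z) ρ) (w i)) F *
        (jacS N w (Sum.elim (inc z) ρ)).det ∂(haarP (HS J N L)) =
      (∫ z : HS J N L, (jacS N w (Sum.elim (inc z) (1 : P → UU (N + L)))).det ∂(haarP (HS J N L))) *
        ∫ t : J → UU (N + L), ev t F ∂(haarP (J → UU (N + L)))

end Stmts

/-! ### The final words. Parameters `P = J × ℕ`: `(j, 0)` is `h_j`, `(j, k + 1)` is the constant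
`c_{j,k}` of the letter number `k` of the row `j`. -/

section Final

variable {J : Type}

/-- the letter number `k` of the row `j` -/
def lett (j : J) (k : ℕ) (x : J × Bool) : FreeGroup ((J ⊕ J) ⊕ (J × ℕ)) :=
  FreeGroup.of (Sum.inr (j, k + 1)) * FreeGroup.mk [(Sum.inl (Sum.inl x.1), x.2)] *
    (FreeGroup.of (Sum.inr (j, k + 1)))⁻¹

/-- the product of the letters of a row, from number `k` on -/
def prodl (j : J) : ℕ → List (J × Bool) → FreeGroup ((J ⊕ J) ⊕ (J × ℕ))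
  | _, [] => 1
  | k, x :: l => lett j k x * prodl j (k + 1) l

/-- the words `h_j⁻¹ * ∏_k c_k π^{±1} c_k⁻¹ * v_j⁻¹ s_j v_j` -/
def wf (occ : J → List (J × Bool)) (j : J) : FreeGroup (Sv J ⊕ (J × ℕ)) :=
  kap ((FreeGroup.of (Sum.inr (j, 0)))⁻¹ * prodl j 0 (occ j) * FreeGroup.of (Sum.inl (Sum.inr j)))

/-- the words `W_j = ∏ π^{±1}` -/
def W0 (occ : J → List (J × Bool)) (j : J) : FreeGroup (J ⊕ (J × ℕ)) :=
  FreeGroup.mk ((occ j).map fun x => (Sum.inl x.1, x.2))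

variable [Fintype J] [DecidableEq J]

/-- **T2-VAL** -/
def ValStmt (J : Type) [Fintype J] [DecidableEq J] : Prop := ∀ (N L : ℕ) (occ : J → List (J × Bool)),
  ∃ c : ℝ, 0 < c ∧ ∫ z : HS J N L, (jacS N (wf occ) (Sum.elim (inc z) (1 : J × ℕ → UU (N + L)))).det
    ∂(haarP (HS J N L)) = deg (W0 occ) (1 : J × ℕ → UU N) * c

/-- the exponent of `i` in the row `l` -/
def expo (l : List (J × Bool)) (i : J) : ℤ :=
  (l.map fun x => if x.1 = i then (if x.2 then 1 else -1) else 0).sum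

/-- **T2-DEGW** -/
def DegWStmt (J P : Type) [Fintype J] [DecidableEq J] : Prop := ∀ (N : ℕ)
  (W : J → FreeGroup (J ⊕ P)) (ρ : P → UU N),
  (Matrix.of fun i j => Multiplicative.toAdd (sumJ j (W i)) : Matrix J J ℤ).det ≠ 0 → deg W ρ ≠ 0

/-- the matrix `P_j(π)` on a set `D` of darts: block `π_{i k}^{ε k}` on the darts `e (k, ·)` and the
identity on the other darts -/
noncomputable def Pmat {D K : Type} [Fintype D] [DecidableEq D] [Fintype K] {N : ℕ}
    (e : K × Fin N → D) (i : K → J) (ε : K → Bool) (π : J → UU N) : Matrix D D ℂ :=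
  Matrix.of fun x y => (∑ k : K, ∑ p : Fin N, ∑ q : Fin N, if e (k, p) = x ∧ e (k, q) = y then
      (((if ε k then π (i k) else (π (i k))⁻¹ : UU N) : Mat N) p q) else 0) +
    (if x = y ∧ ∀ y', e y' ≠ x then 1 else 0)

/-- **T2-KER, final statement T2** -/
def T2Stmt (J : Type) [Fintype J] [DecidableEq J] : Prop := ∀ (N : ℕ)
  (D K : J → Type) [∀ j, Fintype (D j)] [∀ j, DecidableEq (D j)] [∀ j, Fintype (K j)]
  (e : ∀ j, K j × Fin N → D j) (i : ∀ j, K j → J) (ε : ∀ j, K j → Bool),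
  (∀ j, Function.Injective (e j)) →
  (Matrix.of fun j i' => ∑ k : K j, if i j k = i' then (if ε j k then (1 : ℤ) else -1) else 0 :
    Matrix J J ℤ).det ≠ 0 →
  ∀ h : ∀ j, Matrix.unitaryGroup (D j) ℂ, ∃ π : J → UU N, ∀ j,
    N ≤ Module.finrank ℂ (LinearMap.ker (Matrix.toLin'
      ((h j : Matrix (D j) (D j) ℂ) - Pmat (e j) (i j) (ε j) π)))

/-- what T2-KER gets: solutions of the word equations -/
def SolStmt (J : Type) [Fintype J] [DecidableEq J] : Prop := ∀ (N L : ℕ)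
  (occ : J → List (J × Bool)), (Matrix.of fun j i => expo (occ j) i : Matrix J J ℤ).det ≠ 0 →
  ∀ ρ : J × ℕ → UU (N + L), ∃ z : HS J N L, ∀ j,
    FreeGroup.lift (Sum.elim (inc z) ρ) (wf occ j) = 1

end Final

end Vale.Agent.P174.T2
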