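import Vale.Agent.P174.T2.Iface
import Vale.Agent.P174.H513.Val

/-! P174, T2-VAL: Fubini and positivity. -/

set_option linter.all false

namespace Vale.Agent.P174.T2

open Matrix Finset MvPolynomial MeasureTheory Vale.Agent.P174 Vale.Agent.P174.H513

variable {J : Type} [Fintype J] [DecidableEq J] {N L : ℕ}

lemma continuous_Gv (N L : ℕ) : Continuous (Gv N L) := by
  unfold Gv
  refine (Continuous.norm ?_).pow _
  exact (continuous_subtype_val.matrix_submatrix _ _).matrix_det

lemma continuous_Gs (N L : ℕ) : Continuous (Gs N L) := by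
  unfold Gs
  refine (Continuous.norm ?_).pow _
  exact (continuous_subtype_val.sub continuous_const).matrix_det

/-- the positive factor -/
noncomputable def gpos (z : (J → UU (N + L)) × (J → UU L)) : ℝ :=
  (∏ j, Gv N L (z.1 j)) * (∏ j, Gs N L (z.2 j))

lemma continuous_gpos : Continuous (gpos : (J → UU (N + L)) × (J → UU L) → ℝ) := by
  unfold gpos
  refine Continuous.mul ?_ ?_
  · exact continuous_finsetProd _ fun j _ =>
      (continuous_Gv N L).comp ((continuous_apply j).comp continuous_fst)
  · exact continuous_finsetProd _ fun j _ =>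
      (continuous_Gs N L).comp ((continuous_apply j).comp continuous_snd)

lemma Gv_nonneg (v : UU (N + L)) : 0 ≤ Gv N L v := by unfold Gv; positivity

lemma Gs_nonneg (s : UU L) : 0 ≤ Gs N L s := by unfold Gs; positivity

lemma gpos_nonneg (z : (J → UU (N + L)) × (J → UU L)) : 0 ≤ gpos z :=
  mul_nonneg (Finset.prod_nonneg fun j _ => Gv_nonneg _) (Finset.prod_nonneg fun j _ => Gs_nonneg _)

lemma Gv_one : Gv N L (1 : UU (N + L)) = 1 := by
  have h : ((1 : UU (N + L)) : Mat (N + L)).submatrix (Fin.castAdd L) (Fin.castAdd L) = 1 := by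
    show (1 : Mat (N + L)).submatrix (Fin.castAdd L) (Fin.castAdd L) = 1
    exact Matrix.submatrix_one _ (Fin.castAdd_injective N L)
  unfold Gv
  rw [h]
  simp

lemma Gs_neg_one : Gs N L (-1 : UU L) ≠ 0 := by
  have h : (((-1 : UU L) : Mat L) - 1) = (-2 : ℂ) • (1 : Mat L) := by
    have h0 : ((-1 : UU L) : Mat L) = -1 := rfl
    rw [h0]
    module
  unfold Gs
  rw [h, Matrix.det_smul, Matrix.det_one, mul_one]
  refine pow_ne_zero _ ?_
  rw [norm_ne_zero_iff]
  exact pow_ne_zero _ (by norm_num)

lemma haar_HS : (haarP (HS J N L)) =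
    (haarP (J → UU N)).prod ((haarP (J → UU (N + L))).prod (haarP (J → UU L))) := by
  haveI i1 : MeasurableMul (J → UU N) := inferInstance
  haveI i2 : MeasurableMul (J → UU (N + L)) := inferInstance
  haveI i3 : MeasurableMul (J → UU L) := inferInstance
  haveI i4 : MeasurableMul ((J → UU (N + L)) × (J → UU L)) := inferInstance
  haveI i5 : ((haarP (J → UU (N + L))).prod (haarP (J → UU L))).IsHaarMeasure :=
    Measure.prod.instIsHaarMeasure _ _
  haveI i6 : ((haarP (J → UU N)).prod
      ((haarP (J → UU (N + L))).prod (haarP (J → UU L)))).IsHaarMeasure :=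
    Measure.prod.instIsHaarMeasure _ _
  exact Measure.isHaarMeasure_eq_of_isProbabilityMeasure _ _

lemma gpos_integral_pos : 0 < ∫ z : (J → UU (N + L)) × (J → UU L), gpos z
    ∂((haarP (J → UU (N + L))).prod (haarP (J → UU L))) := by
  apply continuous_gpos.integral_pos_of_hasCompactSupport_nonneg_nonzero
    (HasCompactSupport.of_compactSpace _) (x := (fun _ => 1, fun _ => -1))
  · intro z
    exact gpos_nonneg z
  · unfold gpos
    refine mul_ne_zero ?_ ?_
    · rw [Finset.prod_ne_zero_iff]
      intro j _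
      rw [Gv_one]
      exact one_ne_zero
    · rw [Finset.prod_ne_zero_iff]
      intro j _
      exact Gs_neg_one

theorem valS_of (h : JacDetStmt J) : ValStmt J := by
  intro N L occ
  refine ⟨_, gpos_integral_pos (J := J) (N := N) (L := L), ?_⟩
  have h1 : (fun z : HS J N L =>
      (jacS N (wf occ) (Sum.elim (inc z) (1 : J × ℕ → UU (N + L)))).det)
      = fun z : HS J N L => (jacM (W0 occ) (Sum.elim z.1 (1 : J × ℕ → UU N))).det *
        ((gpos z.2 : ℝ) : ℂ) := by
    funext z
    exact h N L occ z
  rw [h1, haar_HS]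
  rw [integral_prod_mul (fun t : J → UU N => (jacM (W0 occ) (Sum.elim t (1 : J × ℕ → UU N))).det)
    (fun z : (J → UU (N + L)) × (J → UU L) => ((gpos z : ℝ) : ℂ))]
  rw [integral_complex_ofReal]
  rfl

theorem valS (J : Type) [Fintype J] [DecidableEq J] : ValStmt J := valS_of jacDet

end Vale.Agent.P174.T2
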