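import Vale.Agent.P174.T2.Main
import Vale.Agent.P174.T2.ValS
import Vale.Agent.P174.H89.KerS

/-! P174, T2: unconditional word equations and kernel statement. -/

namespace Vale.Agent.P174.T2

/-- **T2, word equations** (no hypotheses left) -/
theorem solS (J : Type) [Fintype J] [DecidableEq J] : SolStmt J := sol_of_val (valS J)

/-- **T2, kernel statement** (no hypotheses left) -/
theorem t2S (J : Type) [Fintype J] [DecidableEq J] : T2Stmt J := t2_of_sol (solS J)

end Vale.Agent.P174.T2
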