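import Vale.Agent.P174.T2.Iface

/-! P174, package T2-LAM: the degree integral does not depend on the parameters. -/

set_option linter.all false

namespace Vale.Agent.P174.T2

open Matrix Finset MvPolynomial MeasureTheory

section

variable {J P : Type} [Fintype J] [DecidableEq J] {N L : ℕ}

lemma continuous_blkU : Continuous (fun x : UU N × UU L => (blkU x : UU (N + L))) := by
  refine Continuous.subtype_mk ?_ _
  have h1 : Continuous (fun x : UU N × UU L => (x.1 : Mat N)) :=
    continuous_subtype_val.comp continuous_fst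
  have h2 : Continuous (fun x : UU N × UU L => (x.2 : Mat L)) :=
    continuous_subtype_val.comp continuous_snd
  exact (Continuous.matrix_fromBlocks h1 continuous_const continuous_const h2).matrix_submatrix _ _

lemma continuous_inc : Continuous (fun z : HS J N L => inc z) := by
  refine continuous_pi fun x => ?_
  rcases x with j | j | j
  · exact continuous_blkU.comp (((continuous_apply j).comp continuous_fst).prodMk continuous_const)
  · exact (continuous_apply j).comp (continuous_fst.comp continuous_snd)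
  · exact continuous_blkU.comp
      (continuous_const.prodMk ((continuous_apply j).comp (continuous_snd.comp continuous_snd)))

lemma continuous_incP (ρ : P → UU (N + L)) :
    Continuous (fun z : HS J N L => (Sum.elim (inc z) ρ : Sv J ⊕ P → UU (N + L))) := by
  refine continuous_pi fun x => ?_
  rcases x with j | p
  · exact (continuous_apply j).comp continuous_inc
  · exact continuous_const

lemma ev_DpolyS (w : J → FreeGroup (Sv J ⊕ P)) (t : Sv J ⊕ P → UU (N + L)) (c a : Ix J (N + L)) :
    ev t (DpolyS N w c a) = jacS N w t c a := ev_Dp_rep t _ _ _ _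

lemma ev_DpolyS_det (w : J → FreeGroup (Sv J ⊕ P)) (t : Sv J ⊕ P → UU (N + L)) :
    ev t (DpolyS N w).det = (jacS N w t).det := by
  rw [RingHom.map_det]
  congr 1
  ext c a
  exact ev_DpolyS w t c a

/-- the functional -/
noncomputable def LamS (N : ℕ) {L : ℕ} (w : J → FreeGroup (Sv J ⊕ P)) (ρ : P → UU (N + L))
    (F : PP J (N + L)) : ℂ :=
  ∫ z : HS J N L, ev (Sum.elim (inc z) ρ) (sub w F * (DpolyS N w).det) ∂(haarP (HS J N L))

lemma LamS_eq (w : J → FreeGroup (Sv J ⊕ P)) (ρ : P → UU (N + L)) (F : PP J (N + L)) :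
    LamS N w ρ F = ∫ z : HS J N L, ev (fun i => FreeGroup.lift (Sum.elim (inc z) ρ) (w i)) F *
        (jacS N w (Sum.elim (inc z) ρ)).det ∂(haarP (HS J N L)) := by
  simp only [LamS, map_mul, ev_sub, ev_DpolyS_det]

lemma LamS_flow (hP : PiolaStmt J P) (hI : IntZeroStmt J P) (hD : DerivStmt J P)
    (w : J → FreeGroup (Sv J ⊕ P)) (hw : Adm w) (ρ : P → UU (N + L)) (F : PP J (N + L))
    (B : P → selfAdjoint (Mat (N + L))) : LamS N w (flow B 1 ρ) F = LamS N w ρ F := by
  set f := sub w F * (DpolyS N w).det with hf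
  set g : ℝ → ℂ := fun s => ∫ z : HS J N L, ev (Sum.elim (inc z) (flow B s ρ)) f
    ∂(haarP (HS J N L)) with hg
  have hd : ∀ s, HasDerivAt g 0 s := by
    intro s
    have h := hD N L B ρ f s
    have hz : ∫ z : HS J N L, ev (Sum.elim (inc z) (flow B s ρ))
        (TT (Sum.elim (fun _ => 0) (fdir B)) f) ∂(haarP (HS J N L)) = 0 := by
      simp only [hf, hP N L w hw]
      rw [integral_finsetSum]
      · refine Finset.sum_eq_zero fun a _ => ?_
        exact hI N L a _ _
      · intro a _
        exact integrable_of_cont ((cont_ev _).comp (continuous_incP _))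
    rw [hz] at h
    exact h
  have hconst := is_const_of_deriv_eq_zero (fun s => (hd s).differentiableAt)
    (fun s => (hd s).deriv) 1 0
  simp only [hg, flow_zero] at hconst
  exact hconst

lemma LamS_indep (hP : PiolaStmt J P) (hI : IntZeroStmt J P) (hD : DerivStmt J P)
    (w : J → FreeGroup (Sv J ⊕ P)) (hw : Adm w) (ρ ρ' : P → UU (N + L)) (F : PP J (N + L)) :
    LamS N w ρ' F = LamS N w ρ F := by
  choose a b hab using fun p => exists_two_exp (ρ' p * (ρ p)⁻¹)
  have : ρ' = flow a 1 (flow b 1 ρ) := by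
    funext p
    simp only [flow, one_smul]
    rw [← mul_assoc, hab]
    group
  rw [this, LamS_flow hP hI hD w hw, LamS_flow hP hI hD w hw]

lemma dirS_embP {Q : Type} (a : Ix J (N + L)) :
    (fun v : Sv J ⊕ P => (dirS N a : Sv J ⊕ (P ⊕ Q) → Mat (N + L)) (embP Q v)) = dirS N a := by
  funext v
  rcases v with j | p <;> rfl

lemma fx_embPS {Q : Type} (t : Sv J → UU (N + L)) (ρ : P → UU (N + L)) (z : Q → UU (N + L))
    (a : Ix J (N + L)) (u : FreeGroup (Sv J ⊕ P)) :
    fx (Sum.elim t (Sum.elim ρ z)) (dirS N a) (FreeGroup.map (embP Q) u)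
      = fx (Sum.elim t ρ) (dirS N a) u := by
  rw [fx_map, elim_embP, dirS_embP]

lemma fx_paramS {Q : Type} (t : Sv J → UU (N + L)) (ρ : Q → UU (N + L)) (a : Ix J (N + L)) (q : Q) :
    fx (Sum.elim t ρ) (dirS N a) (FreeGroup.of (Sum.inr q)) = 0 := by
  rw [fx_of]; rfl

lemma map_kap {Q : Type} (u : FreeGroup ((J ⊕ J) ⊕ P)) :
    FreeGroup.map (embP Q) (kap u : FreeGroup (Sv J ⊕ P))
      = kap (FreeGroup.map (Sum.map id Sum.inl) u : FreeGroup ((J ⊕ J) ⊕ (P ⊕ Q))) := by
  have : (FreeGroup.map (embP Q)).comp (kap (J := J) (P := P))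
      = (kap (J := J) (P := P ⊕ Q)).comp (FreeGroup.map (Sum.map id Sum.inl)) := by
    ext1 v
    rcases v with (j | j) | p
    · simp [kap, embP]
    · simp [kap, embP]
    · simp [kap, embP]
  exact DFunLike.congr_fun this u

lemma cont_det_jacS (w : J → FreeGroup (Sv J ⊕ P)) (ρ : P → UU (N + L)) :
    Continuous (fun z : HS J N L => (jacS N w (Sum.elim (inc z) ρ)).det) := by
  simp only [← ev_DpolyS_det]
  exact (cont_ev _).comp (continuous_incP ρ)

lemma cont_liftS (u : FreeGroup (Sv J ⊕ P)) (ρ : P → UU (N + L)) :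
    Continuous (fun z : HS J N L => FreeGroup.lift (Sum.elim (inc z) ρ) u) :=
  (cont_lift u ρ).comp continuous_inc

theorem invarS (hP : ∀ P, PiolaStmt J P) (hI : ∀ P, IntZeroStmt J P) (hD : ∀ P, DerivStmt J P)
    (w : J → FreeGroup (Sv J ⊕ P)) (hw : Adm w) (ρ : P → UU (N + L)) (F : PP J (N + L)) :
    ∫ z : HS J N L, ev (fun i => FreeGroup.lift (Sum.elim (inc z) ρ) (w i)) F *
        (jacS N w (Sum.elim (inc z) ρ)).det ∂(haarP (HS J N L))
      = (∫ z : HS J N L, (jacS N w (Sum.elim (inc z) ρ)).det ∂(haarP (HS J N L)))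
        * ∫ t : J → UU (N + L), ev t F ∂(haarP (J → UU (N + L))) := by
  set μ := haarP (J → UU (N + L)) with hμ
  set ν := haarP (HS J N L) with hν
  set w' : J → FreeGroup (Sv J ⊕ (P ⊕ J)) := fun i =>
    FreeGroup.map (embP J) (w i) * FreeGroup.of (Sum.inr (Sum.inr i)) with hw'
  have hAdm : Adm w' := by
    obtain ⟨w0, hw0⟩ := hw
    refine ⟨fun i => FreeGroup.map (Sum.map id Sum.inl) (w0 i) *
      FreeGroup.of (Sum.inr (Sum.inr i)), fun i => ?_⟩
    rw [map_mul, ← map_kap, ← hw0]
    simp [hw', kap]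
  have hjac : ∀ (t : HS J N L) (z : J → UU (N + L)),
      jacS N w' (Sum.elim (inc t) (Sum.elim ρ z)) = jacS N w (Sum.elim (inc t) ρ) := by
    intro t z
    ext c a
    simp only [jacS, Matrix.of_apply, hw']
    rw [fx_mul, fx_paramS, Matrix.mul_zero, Matrix.zero_mul, add_zero, fx_embPS]
  have hval : ∀ (t : HS J N L) (z : J → UU (N + L)),
      (fun i => FreeGroup.lift (Sum.elim (inc t) (Sum.elim ρ z)) (w' i))
        = (fun i => FreeGroup.lift (Sum.elim (inc t) ρ) (w i)) * z := by
    intro t z
    funext i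
    rw [hw', map_mul, lift_embP, FreeGroup.lift_apply_of]
    rfl
  have hz : ∀ z : J → UU (N + L), ∫ t : HS J N L,
      ev ((fun i => FreeGroup.lift (Sum.elim (inc t) ρ) (w i)) * z) F
        * (jacS N w (Sum.elim (inc t) ρ)).det ∂ν = LamS N w ρ F := by
    intro z
    have h1 := LamS_indep (hP _) (hI _) (hD _) w' hAdm (Sum.elim ρ 1) (Sum.elim ρ z) F
    rw [LamS_eq, LamS_eq] at h1
    simp only [hjac, hval, mul_one] at h1
    rw [h1, LamS_eq]
  rw [← LamS_eq]
  have hint : Integrable (Function.uncurry (fun (z : J → UU (N + L)) (t : HS J N L) =>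
      ev ((fun i => FreeGroup.lift (Sum.elim (inc t) ρ) (w i)) * z) F
        * (jacS N w (Sum.elim (inc t) ρ)).det)) (μ.prod ν) := by
    have hc : Continuous (Function.uncurry (fun (z : J → UU (N + L)) (t : HS J N L) =>
      ev ((fun i => FreeGroup.lift (Sum.elim (inc t) ρ) (w i)) * z) F
        * (jacS N w (Sum.elim (inc t) ρ)).det)) := by
      refine Continuous.mul ?_ ((cont_det_jacS w ρ).comp continuous_snd)
      refine (cont_ev F).comp (Continuous.mul ?_ continuous_fst)
      exact continuous_pi fun i => (cont_liftS (w i) ρ).comp continuous_snd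
    rw [← integrableOn_univ]
    exact hc.continuousOn.integrableOn_compact isCompact_univ
  calc LamS N w ρ F = ∫ z : J → UU (N + L), LamS N w ρ F ∂μ := by simp
    _ = ∫ z : J → UU (N + L), ∫ t : HS J N L,
      ev ((fun i => FreeGroup.lift (Sum.elim (inc t) ρ) (w i)) * z) F
        * (jacS N w (Sum.elim (inc t) ρ)).det ∂ν ∂μ := by simp only [hz]
    _ = ∫ t : HS J N L, ∫ z : J → UU (N + L),
      ev ((fun i => FreeGroup.lift (Sum.elim (inc t) ρ) (w i)) * z) F
        * (jacS N w (Sum.elim (inc t) ρ)).det ∂μ ∂ν := integral_integral_swap hint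
    _ = ∫ t : HS J N L, (∫ z : J → UU (N + L), ev z F ∂μ) * (jacS N w (Sum.elim (inc t) ρ)).det ∂ν := by
        congr 1
        funext t
        rw [integral_mul_const]
        congr 1
        exact integral_mul_left_eq_self (μ := μ) (fun z : J → UU (N + L) => ev z F) _
    _ = _ := by
        rw [integral_const_mul, mul_comm]

/-- **T2-LAM** -/
theorem lamS (hP : ∀ P, PiolaStmt J P) (hI : ∀ P, IntZeroStmt J P) (hD : ∀ P, DerivStmt J P) :
    LamStmt J P := by
  intro N L w hw ρ F
  rw [invarS hP hI hD w hw ρ F]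
  congr 1
  have h := LamS_indep (hP P) (hI P) (hD P) w hw (1 : P → UU (N + L)) ρ (1 : PP J (N + L))
  rw [LamS_eq, LamS_eq] at h
  simp only [map_one, one_mul] at h
  exact h

lemma adm_wf (occ : J → List (J × Bool)) : Adm (wf occ) := ⟨_, fun i => rfl⟩

lemma sumJ_mk (j : J) {P : Type} (l : List (J × Bool)) :
    Multiplicative.toAdd (sumJ j (FreeGroup.mk (l.map fun x => ((Sum.inl x.1 : J ⊕ P), x.2))))
      = expo l j := by
  induction l with
  | nil =>
    simp only [List.map_nil, expo, List.sum_nil]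
    rw [show FreeGroup.mk ([] : List ((J ⊕ P) × Bool)) = 1 from rfl, map_one]
    rfl
  | cons x l ih =>
    obtain ⟨i, b⟩ := x
    rw [List.map_cons]
    have hx : expo ((i, b) :: l) j = (if i = j then (if b then 1 else -1) else 0) + expo l j := by
      simp [expo]
    rw [hx, ← ih]
    cases b
    · rw [mk_cons_false, map_mul, toAdd_mul, map_inv, toAdd_inv]
      congr 1
      simp only [sumJ, FreeGroup.lift_apply_of, Sum.elim_inl]
      by_cases h : i = j
      · simp [h]
      · simp [h]
    · rw [mk_cons_true, map_mul, toAdd_mul]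
      congr 1
      simp only [sumJ, FreeGroup.lift_apply_of, Sum.elim_inl]
      by_cases h : i = j
      · simp [h]
      · simp [h]

/-- solutions of the word equations, from the packages -/
theorem sol_of (hP : ∀ P, PiolaStmt J P) (hI : ∀ P, IntZeroStmt J P) (hD : ∀ P, DerivStmt J P)
    (hE : ∀ P, ExistsStmt J P) (hV : ValStmt J) (hW : ∀ P, DegWStmt J P) : SolStmt J := by
  intro N L occ hdet ρ
  refine hE _ N L (wf occ) ρ _ (fun F => lamS hP hI hD N L (wf occ) (adm_wf occ) ρ F) ?_
  obtain ⟨c, hc, h⟩ := hV N L occ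
  rw [h]
  refine mul_ne_zero (hW _ N (W0 occ) 1 ?_) (by exact_mod_cast hc.ne')
  convert hdet using 3
  funext i
  funext j
  exact sumJ_mk j (occ i)

end

end Vale.Agent.P174.T2
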