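import Vale.Agent.P174.T2.Lam
import Vale.Agent.P174.H459.MC
import Vale.Agent.P174.H447.IntS
import Vale.Agent.P174.H881.DegWS

/-! P174, T2: assembly of the word equations from the value of the degree at one point. -/

namespace Vale.Agent.P174.T2

theorem sol_of_val {J : Type} [Fintype J] [DecidableEq J] (hv : ValStmt J) : SolStmt J :=
  sol_of (fun P => piolaS J P) (fun P => H447.intZeroS J P) (fun P => H447.derivS J P)
    (fun P => H447.existsS J P) hv (fun P => H881.degW J P)

end Vale.Agent.P174.T2
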